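import Mathlib
import Vale.Agent.Lib.P249.helper5.PiLpGlue

/-!
# P249: assembly of the cube lower bound (helper30, backup of job J5)

Points `x_a(e) = ∑ i, sg (a i) * sg (e i)` (`a, e : Fin K → Bool`) in `ℓ_p^(2^K)`.
Given the four cube lemmas (concentration, Khintchine upper bound, second moment lower bound,
injectivity) as hypotheses, every map of these `2^K` points into `ℓ_p^d` with distortion `D`
has `c_p * K^(p/4) ≤ D^p * d`.
-/

open scoped BigOperators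

namespace Vale.Agent.Lib.P249.H30

open Finset

/-- The `i`-th point: the Rademacher copy of the vertex `e i` of the cube. -/
noncomputable def radPt (p : ENNReal) (K : ℕ) (e : Fin (2 ^ K) ≃ (Fin K → Bool))
    (i : Fin (2 ^ K)) : PiLp p (fun _ : Fin (2 ^ K) => ℝ) :=
  WithLp.toLp p (fun k => ∑ l, (if e i l then (-1:ℝ) else 1) * (if e k l then (-1:ℝ) else 1))

theorem radPt_apply (p : ENNReal) (K : ℕ) (e : Fin (2 ^ K) ≃ (Fin K → Bool))
    (i k : Fin (2 ^ K)) :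
    radPt p K e i k = ∑ l, (if e i l then (-1:ℝ) else 1) * (if e k l then (-1:ℝ) else 1) := rfl

theorem dist_rpow_eq (p : ENNReal) [Fact (1 ≤ p)] (hp : p ≠ ⊤) {m : ℕ}
    (a b : PiLp p (fun _ : Fin m => ℝ)) :
    dist a b ^ p.toReal = ∑ k, |a k - b k| ^ p.toReal := by
  have hq : 0 < p.toReal := toReal_pos_of_fact p hp
  have h0 : 0 ≤ ∑ k, |a k - b k| ^ p.toReal :=
    Finset.sum_nonneg fun k _ => Real.rpow_nonneg (abs_nonneg _) _
  rw [dist_piLp_eq p hp, ← Real.rpow_mul h0, one_div, inv_mul_cancel₀ hq.ne', Real.rpow_one]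

theorem coord_le_dist (p : ENNReal) [Fact (1 ≤ p)] (hp : p ≠ ⊤) {m : ℕ}
    (a b : PiLp p (fun _ : Fin m => ℝ)) (k : Fin m) : |a k - b k| ≤ dist a b := by
  have hq : 0 < p.toReal := toReal_pos_of_fact p hp
  have h1 : |a k - b k| ^ p.toReal ≤ dist a b ^ p.toReal := by
    rw [dist_rpow_eq p hp]
    exact Finset.single_le_sum (f := fun k => |a k - b k| ^ p.toReal)
      (fun k _ => Real.rpow_nonneg (abs_nonneg _) _) (Finset.mem_univ k)
  exact le_of_not_gt fun hlt =>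
    absurd h1 (not_le.mpr (Real.rpow_lt_rpow dist_nonneg hlt hq))

theorem dist_radPt_rpow (p : ENNReal) [Fact (1 ≤ p)] (hp : p ≠ ⊤) (K : ℕ)
    (e : Fin (2 ^ K) ≃ (Fin K → Bool)) (i j : Fin (2 ^ K)) :
    dist (radPt p K e i) (radPt p K e j) ^ p.toReal =
      ∑ k : Fin K → Bool,
        |∑ l, ((if e i l then (-1:ℝ) else 1) - (if e j l then (-1:ℝ) else 1)) *
          (if k l then (-1:ℝ) else 1)| ^ p.toReal := by
  rw [dist_rpow_eq p hp]
  rw [← Equiv.sum_comp e (fun k : Fin K → Bool =>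
    |∑ l, ((if e i l then (-1:ℝ) else 1) - (if e j l then (-1:ℝ) else 1)) *
      (if k l then (-1:ℝ) else 1)| ^ p.toReal)]
  refine Finset.sum_congr rfl fun k _ => ?_
  rw [radPt_apply, radPt_apply, ← Finset.sum_sub_distrib]
  congr 2
  refine Finset.sum_congr rfl fun l _ => ?_
  ring

theorem radPt_injective
    (hinj : ∀ K : ℕ, Function.Injective (fun (a : Fin K → Bool) (e : Fin K → Bool) =>
      ∑ i, (if a i then (-1:ℝ) else 1) * (if e i then (-1:ℝ) else 1)))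
    (p : ENNReal) (K : ℕ) (e : Fin (2 ^ K) ≃ (Fin K → Bool)) :
    Function.Injective (radPt p K e) := by
  intro i j hij
  apply e.injective
  apply hinj K
  funext k
  have h := congrArg (fun v : PiLp p (fun _ : Fin (2 ^ K) => ℝ) => v (e.symm k)) hij
  simp only [radPt_apply, Equiv.apply_symm_apply] at h
  exact h

/-- The arithmetic at the end of the argument. -/
theorem final_algebra (q : ℝ) (hq : 2 ≤ q) (K : ℕ) (hK : 1 ≤ K) (s D : ℝ) (hs : 0 < s)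
    (d : ℕ)
    (h : s ^ q * ((8:ℝ) ^ K * (2 * K) ^ (q / 2)) ≤
      d * (4 ^ K * 2 ^ (q + 2) * (D ^ q * s ^ q * (2 * q ^ (q / 2) * 2 ^ q * 2 ^ K)) *
        (q * K) ^ (q / 4))) :
    (2:ℝ) ^ (q / 2) / (2 ^ (2 * q + 3) * q ^ (3 * q / 4)) * (K : ℝ) ^ (q / 4) ≤ D ^ q * d := by
  have hq0 : 0 < q := by linarith
  have hK0 : (0:ℝ) < K := by exact_mod_cast hK
  have hA : 0 < (K : ℝ) ^ (q / 4) := Real.rpow_pos_of_pos hK0 _
  have hT : 0 < (2:ℝ) ^ q := Real.rpow_pos_of_pos (by norm_num) _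
  have hP2 : 0 < (2:ℝ) ^ (q / 2) := Real.rpow_pos_of_pos (by norm_num) _
  have hPq : 0 < q ^ (q / 2) := Real.rpow_pos_of_pos hq0 _
  have hPq4 : 0 < q ^ (q / 4) := Real.rpow_pos_of_pos hq0 _
  have hsq : 0 < s ^ q := Real.rpow_pos_of_pos hs _
  have h1 : (2 * (K:ℝ)) ^ (q / 2) = (2:ℝ) ^ (q / 2) * ((K : ℝ) ^ (q / 4)) ^ 2 := by
    rw [Real.mul_rpow (by norm_num) hK0.le, ← Real.rpow_natCast, ← Real.rpow_mul hK0.le]
    congr 2
    push_cast
    ring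
  have h2 : (q * (K:ℝ)) ^ (q / 4) = q ^ (q / 4) * (K : ℝ) ^ (q / 4) :=
    Real.mul_rpow hq0.le hK0.le
  have h3 : (2:ℝ) ^ (q + 2) = 2 ^ q * 4 := by
    rw [Real.rpow_add (by norm_num), Real.rpow_two]
    norm_num
  have h4 : (2:ℝ) ^ (2 * q + 3) = (2 ^ q) ^ 2 * 8 := by
    have : 2 * q + 3 = q + q + (3:ℕ) := by push_cast; ring
    rw [this, Real.rpow_add (by norm_num), Real.rpow_add (by norm_num), Real.rpow_natCast]
    ring
  have h5 : q ^ (3 * q / 4) = q ^ (q / 2) * q ^ (q / 4) := by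
    rw [← Real.rpow_add hq0]
    congr 1
    ring
  have h6 : (8:ℝ) ^ K = 4 ^ K * 2 ^ K := by
    rw [← mul_pow]
    norm_num
  rw [h1, h2, h3, h6] at h
  rw [h4, h5, div_mul_eq_mul_div, div_le_iff₀ (by positivity)]
  have hc : 0 < s ^ q * (4:ℝ) ^ K * 2 ^ K * (K : ℝ) ^ (q / 4) := by positivity
  refine le_of_mul_le_mul_left ?_ hc
  calc s ^ q * (4:ℝ) ^ K * 2 ^ K * (K : ℝ) ^ (q / 4) * ((2:ℝ) ^ (q / 2) * (K : ℝ) ^ (q / 4))
      = s ^ q * ((4:ℝ) ^ K * 2 ^ K * ((2:ℝ) ^ (q / 2) * ((K : ℝ) ^ (q / 4)) ^ 2)) := by ring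
    _ ≤ d * (4 ^ K * (2 ^ q * 4) * (D ^ q * s ^ q * (2 * q ^ (q / 2) * 2 ^ q * 2 ^ K)) *
        (q ^ (q / 4) * (K : ℝ) ^ (q / 4))) := h
    _ = s ^ q * (4:ℝ) ^ K * 2 ^ K * (K : ℝ) ^ (q / 4) *
        (D ^ q * d * (((2:ℝ) ^ q) ^ 2 * 8 * (q ^ (q / 2) * q ^ (q / 4)))) := by ring

/-- The core counting argument, free of `PiLp`: `dx`, `dy` are the distances of the points and
of their images, `Y` the coordinates of the images. -/
theorem core
    (hconc : ∀ (K : ℕ), 1 ≤ K → ∀ (q : ℝ), 2 ≤ q → ∀ (Lam : ℝ), 0 ≤ Lam →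
      ∀ (h : (Fin K → Bool) → ℝ),
        (∀ a b, |h a - h b| ≤ Lam * Real.sqrt (hammingDist a b)) →
        ∑ a, ∑ b, |h a - h b| ^ q ≤ 4 ^ K * 2 ^ (q + 2) * Lam ^ q * (q * K) ^ (q / 4))
    (hx1 : ∀ (K : ℕ) (q : ℝ), 2 ≤ q → ∀ (a b : Fin K → Bool),
      ∑ e : Fin K → Bool,
        |∑ i, ((if a i then (-1:ℝ) else 1) - (if b i then (-1:ℝ) else 1)) *
          (if e i then (-1:ℝ) else 1)| ^ q
        ≤ 2 * q ^ (q / 2) * 2 ^ q * 2 ^ K * (hammingDist a b : ℝ) ^ (q / 2))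
    (hx2 : ∀ (K : ℕ) (q : ℝ), 2 ≤ q →
      (8:ℝ) ^ K * (2 * K) ^ (q / 2) ≤
        ∑ a : Fin K → Bool, ∑ b : Fin K → Bool, ∑ e : Fin K → Bool,
          |∑ i, ((if a i then (-1:ℝ) else 1) - (if b i then (-1:ℝ) else 1)) *
            (if e i then (-1:ℝ) else 1)| ^ q)
    (q : ℝ) (hq2 : 2 ≤ q) (K : ℕ) (hK : 1 ≤ K) (d : ℕ) (s D : ℝ) (hs : 0 < s) (hD : 0 ≤ D)
    (dx dy : (Fin K → Bool) → (Fin K → Bool) → ℝ) (Y : (Fin K → Bool) → Fin d → ℝ)
    (hdx0 : ∀ a b, 0 ≤ dx a b)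
    (hdxq : ∀ a b, dx a b ^ q = ∑ k : Fin K → Bool,
      |∑ l, ((if a l then (-1:ℝ) else 1) - (if b l then (-1:ℝ) else 1)) *
        (if k l then (-1:ℝ) else 1)| ^ q)
    (hdyq : ∀ a b, dy a b ^ q = ∑ j' : Fin d, |Y a j' - Y b j'| ^ q)
    (hcoord : ∀ a b j', |Y a j' - Y b j'| ≤ dy a b)
    (H : ∀ a b, s * dx a b ≤ dy a b ∧ dy a b ≤ D * s * dx a b) :
    (2:ℝ) ^ (q / 2) / (2 ^ (2 * q + 3) * q ^ (3 * q / 4)) * (K : ℝ) ^ (q / 4) ≤ D ^ q * d := by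
  have hq : 0 < q := by linarith
  have hW0 : 0 ≤ 2 * q ^ (q / 2) * (2:ℝ) ^ q * 2 ^ K := by
    have h1 : 0 < q ^ (q / 2) := Real.rpow_pos_of_pos hq _
    have h2 : 0 < (2:ℝ) ^ q := Real.rpow_pos_of_pos (by norm_num) _
    positivity
  obtain ⟨W, hW⟩ : ∃ W : ℝ, W = 2 * q ^ (q / 2) * (2:ℝ) ^ q * 2 ^ K := ⟨_, rfl⟩
  rw [← hW] at hW0
  have hWr0 : 0 ≤ W ^ (1 / q) := Real.rpow_nonneg hW0 _
  have hLam0 : 0 ≤ D * s * W ^ (1 / q) := mul_nonneg (mul_nonneg hD hs.le) hWr0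
  -- the Lipschitz bound of each coordinate of the image
  have hdx : ∀ a b : Fin K → Bool, dx a b ≤ W ^ (1 / q) * Real.sqrt (hammingDist a b) := by
    intro a b
    have ht0 : (0:ℝ) ≤ (hammingDist a b : ℝ) := Nat.cast_nonneg _
    have h6 : dx a b ^ q ≤ W * (hammingDist a b : ℝ) ^ (q / 2) := by
      rw [hdxq a b, hW]
      exact hx1 K q hq2 a b
    have h7 : (W ^ (1 / q) * Real.sqrt (hammingDist a b)) ^ q =
        W * (hammingDist a b : ℝ) ^ (q / 2) := by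
      rw [Real.mul_rpow hWr0 (Real.sqrt_nonneg _), ← Real.rpow_mul hW0, one_div,
        inv_mul_cancel₀ hq.ne', Real.rpow_one, Real.sqrt_eq_rpow, ← Real.rpow_mul ht0]
      congr 2
      ring
    by_contra hcon
    have hcon := not_le.mp hcon
    have h8 := Real.rpow_lt_rpow (mul_nonneg hWr0 (Real.sqrt_nonneg _)) hcon hq
    rw [h7] at h8
    linarith
  have hlip : ∀ (j' : Fin d) (a b : Fin K → Bool),
      |Y a j' - Y b j'| ≤ D * s * W ^ (1 / q) * Real.sqrt (hammingDist a b) := by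
    intro j' a b
    calc |Y a j' - Y b j'| ≤ dy a b := hcoord a b j'
      _ ≤ D * s * dx a b := (H a b).2
      _ ≤ D * s * (W ^ (1 / q) * Real.sqrt (hammingDist a b)) :=
          mul_le_mul_of_nonneg_left (hdx a b) (mul_nonneg hD hs.le)
      _ = D * s * W ^ (1 / q) * Real.sqrt (hammingDist a b) := by ring
  have hc : ∀ j' : Fin d, ∑ a : Fin K → Bool, ∑ b : Fin K → Bool, |Y a j' - Y b j'| ^ q ≤
      4 ^ K * 2 ^ (q + 2) * (D * s * W ^ (1 / q)) ^ q * (q * K) ^ (q / 4) :=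
    fun j' => hconc K hK q hq2 _ hLam0 (fun a => Y a j') (hlip j')
  have hsum : ∑ a : Fin K → Bool, ∑ b : Fin K → Bool, dy a b ^ q ≤
      d * (4 ^ K * 2 ^ (q + 2) * (D * s * W ^ (1 / q)) ^ q * (q * K) ^ (q / 4)) := by
    have hswap : ∑ a : Fin K → Bool, ∑ b : Fin K → Bool, dy a b ^ q =
        ∑ j' : Fin d, ∑ a : Fin K → Bool, ∑ b : Fin K → Bool, |Y a j' - Y b j'| ^ q := by
      calc ∑ a : Fin K → Bool, ∑ b : Fin K → Bool, dy a b ^ q
          = ∑ a : Fin K → Bool, ∑ b : Fin K → Bool, ∑ j' : Fin d, |Y a j' - Y b j'| ^ q :=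
            Finset.sum_congr rfl fun a _ => Finset.sum_congr rfl fun b _ => hdyq a b
        _ = ∑ a : Fin K → Bool, ∑ j' : Fin d, ∑ b : Fin K → Bool, |Y a j' - Y b j'| ^ q :=
            Finset.sum_congr rfl fun a _ => Finset.sum_comm
        _ = ∑ j' : Fin d, ∑ a : Fin K → Bool, ∑ b : Fin K → Bool, |Y a j' - Y b j'| ^ q :=
            Finset.sum_comm
    rw [hswap]
    calc ∑ j' : Fin d, ∑ a : Fin K → Bool, ∑ b : Fin K → Bool, |Y a j' - Y b j'| ^ q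
        ≤ ∑ _j' : Fin d, (4 ^ K * 2 ^ (q + 2) * (D * s * W ^ (1 / q)) ^ q * (q * K) ^ (q / 4)) :=
          Finset.sum_le_sum fun j' _ => hc j'
      _ = d * (4 ^ K * 2 ^ (q + 2) * (D * s * W ^ (1 / q)) ^ q * (q * K) ^ (q / 4)) := by
          simp
  have hlow : s ^ q * ((8:ℝ) ^ K * (2 * K) ^ (q / 2)) ≤
      ∑ a : Fin K → Bool, ∑ b : Fin K → Bool, dy a b ^ q := by
    have hsq : 0 ≤ s ^ q := Real.rpow_nonneg hs.le _
    calc s ^ q * ((8:ℝ) ^ K * (2 * K) ^ (q / 2))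
        ≤ s ^ q * ∑ a : Fin K → Bool, ∑ b : Fin K → Bool, ∑ e : Fin K → Bool,
          |∑ i, ((if a i then (-1:ℝ) else 1) - (if b i then (-1:ℝ) else 1)) *
            (if e i then (-1:ℝ) else 1)| ^ q := mul_le_mul_of_nonneg_left (hx2 K q hq2) hsq
      _ = ∑ a : Fin K → Bool, ∑ b : Fin K → Bool, s ^ q * dx a b ^ q := by
          rw [Finset.mul_sum]
          refine Finset.sum_congr rfl fun a _ => ?_
          rw [Finset.mul_sum]
          refine Finset.sum_congr rfl fun b _ => ?_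
          rw [hdxq a b]
      _ ≤ ∑ a : Fin K → Bool, ∑ b : Fin K → Bool, dy a b ^ q := by
          refine Finset.sum_le_sum fun a _ => Finset.sum_le_sum fun b _ => ?_
          rw [← Real.mul_rpow hs.le (hdx0 a b)]
          exact Real.rpow_le_rpow (mul_nonneg hs.le (hdx0 a b)) (H a b).1 hq.le
  have hLamq : (D * s * W ^ (1 / q)) ^ q = D ^ q * s ^ q * W := by
    rw [Real.mul_rpow (mul_nonneg hD hs.le) hWr0, Real.mul_rpow hD hs.le, ← Real.rpow_mul hW0,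
      one_div, inv_mul_cancel₀ hq.ne', Real.rpow_one]
  have hfin := hlow.trans hsum
  rw [hLamq, hW] at hfin
  exact final_algebra q hq2 K hK s D hs d hfin

/-- Assembly: from the four cube lemmas to the lower bound for arbitrary maps into `ℓ_p^d`. -/
theorem lb_assembly
    (hconc : ∀ (K : ℕ), 1 ≤ K → ∀ (q : ℝ), 2 ≤ q → ∀ (Lam : ℝ), 0 ≤ Lam →
      ∀ (h : (Fin K → Bool) → ℝ),
        (∀ a b, |h a - h b| ≤ Lam * Real.sqrt (hammingDist a b)) →
        ∑ a, ∑ b, |h a - h b| ^ q ≤ 4 ^ K * 2 ^ (q + 2) * Lam ^ q * (q * K) ^ (q / 4))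
    (hx1 : ∀ (K : ℕ) (q : ℝ), 2 ≤ q → ∀ (a b : Fin K → Bool),
      ∑ e : Fin K → Bool,
        |∑ i, ((if a i then (-1:ℝ) else 1) - (if b i then (-1:ℝ) else 1)) *
          (if e i then (-1:ℝ) else 1)| ^ q
        ≤ 2 * q ^ (q / 2) * 2 ^ q * 2 ^ K * (hammingDist a b : ℝ) ^ (q / 2))
    (hx2 : ∀ (K : ℕ) (q : ℝ), 2 ≤ q →
      (8:ℝ) ^ K * (2 * K) ^ (q / 2) ≤
        ∑ a : Fin K → Bool, ∑ b : Fin K → Bool, ∑ e : Fin K → Bool,
          |∑ i, ((if a i then (-1:ℝ) else 1) - (if b i then (-1:ℝ) else 1)) *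
            (if e i then (-1:ℝ) else 1)| ^ q)
    (hinj : ∀ K : ℕ, Function.Injective (fun (a : Fin K → Bool) (e : Fin K → Bool) =>
      ∑ i, (if a i then (-1:ℝ) else 1) * (if e i then (-1:ℝ) else 1)))
    (p : ENNReal) [Fact (1 ≤ p)] (hp : p ≠ ⊤) (hp2 : 2 ≤ p) :
    ∃ c : ℝ, 0 < c ∧ ∀ K : ℕ, 1 ≤ K →
      ∃ (m : ℕ) (x : Fin (2 ^ K) → PiLp p (fun _ : Fin m => ℝ)), Function.Injective x ∧
        ∀ (d : ℕ) (y : Fin (2 ^ K) → PiLp p (fun _ : Fin d => ℝ)) (s D : ℝ), 0 < s →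
          (∀ i j, s * dist (x i) (x j) ≤ dist (y i) (y j) ∧
            dist (y i) (y j) ≤ D * s * dist (x i) (x j)) →
          c * (K : ℝ) ^ (p.toReal / 4) ≤ D ^ p.toReal * d := by
  have hq : 0 < p.toReal := toReal_pos_of_fact p hp
  have hq2 : 2 ≤ p.toReal := by
    have h := ENNReal.toReal_mono hp hp2
    simpa using h
  refine ⟨(2:ℝ) ^ (p.toReal / 2) / (2 ^ (2 * p.toReal + 3) * p.toReal ^ (3 * p.toReal / 4)),
    ?_, ?_⟩
  · have h1 : 0 < (2:ℝ) ^ (p.toReal / 2) := Real.rpow_pos_of_pos (by norm_num) _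
    have h2 : 0 < (2:ℝ) ^ (2 * p.toReal + 3) := Real.rpow_pos_of_pos (by norm_num) _
    have h3 : 0 < p.toReal ^ (3 * p.toReal / 4) := Real.rpow_pos_of_pos hq _
    positivity
  intro K hK
  have hcard : Fintype.card (Fin K → Bool) = 2 ^ K := by simp
  let e : Fin (2 ^ K) ≃ (Fin K → Bool) := (Fintype.equivFinOfCardEq hcard).symm
  refine ⟨2 ^ K, radPt p K e, radPt_injective hinj p K e, ?_⟩
  intro d y s D hs H
  have hD : 0 ≤ D := by
    have h0 : 0 < 2 ^ K := by positivity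
    have h2 : 1 < 2 ^ K := Nat.one_lt_two_pow (by omega)
    have hne : (⟨0, h0⟩ : Fin (2 ^ K)) ≠ ⟨1, h2⟩ := by
      intro h
      simp [Fin.ext_iff] at h
    have hpos : 0 < dist (radPt p K e ⟨0, h0⟩) (radPt p K e ⟨1, h2⟩) :=
      dist_pos.mpr fun h => hne (radPt_injective hinj p K e h)
    obtain ⟨hlo, hhi⟩ := H ⟨0, h0⟩ ⟨1, h2⟩
    have h3 := hlo.trans hhi
    have h4 := mul_pos hs hpos
    by_contra hneg
    have hneg := not_le.mp hneg
    have h5 : D * (s * dist (radPt p K e ⟨0, h0⟩) (radPt p K e ⟨1, h2⟩)) < 0 :=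
      mul_neg_of_neg_of_pos hneg h4
    rw [mul_assoc] at h3
    linarith
  exact core hconc hx1 hx2 p.toReal hq2 K hK d s D hs hD
    (fun a b => dist (radPt p K e (e.symm a)) (radPt p K e (e.symm b)))
    (fun a b => dist (y (e.symm a)) (y (e.symm b)))
    (fun a j' => y (e.symm a) j')
    (fun a b => dist_nonneg)
    (fun a b => by
      have h := dist_radPt_rpow p hp K e (e.symm a) (e.symm b)
      simp only [Equiv.apply_symm_apply] at h
      exact h)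
    (fun a b => dist_rpow_eq p hp _ _)
    (fun a b j' => coord_le_dist p hp _ _ j')
    (fun a b => H _ _)

end Vale.Agent.Lib.P249.H30
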